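import Vale.Agent.P106.U.MIC.Rows
import Vale.Agent.P106.U.H495.WndV
import Vale.Agent.P106.U.H931.Sd
import Vale.Agent.P106.U.H833.LigT
import Vale.Agent.P106.U.H118.HeavyRun

/-!
# P106 / U / H812 : the record along the compressed path, one scale (helper812; row of helper679)

`f = ix R i0`, `a = az R i0`, `r = rz R i0`, `C = lc R.C μ o`, `b = bc R`.

* `lvl` : `H495.Lvl` for `lm z = nx n a (lvi n a z)`;  `sdat_ix` : `H118.Sdat` for the compressed path from `i0` on.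
* `a_ix`, `R_ix`, `ix_strict`, `ix_st`, `ix_f1` : levels in digits, hypotheses of `heavy_ovhM`.
* `psi0`, `triv0` : the trivial inequality of `ScaleOk`;  `qc0_sum` : the sum of its prices.
* `end0` : `psi0 N - psi0 0 - gU ≤ I (l ; cell N | cell 0)`.
-/

set_option autoImplicit false

namespace Vale.Agent.P106.U.H812

open Finset Vale.Agent.P127 Vale.Agent.P127.Stk Vale.Agent.P127.U Vale.Agent.P106.W Vale.Agent.P106.K
open Vale.Agent.P106.U.Cell (Pth)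
open Vale.Agent.P106.U.S3 (Run)
open Vale.Agent.P106.U.MIC
open Vale.Agent.P106.U.H833 (aN RN qc psi tdg cNst lev_a lev_R)
open Vale.Agent.P106.U.H101 (lc low)
open Vale.Agent.P106.U.H823
open Vale.Agent.P106.U.H118 (Sdat Zw)
open Vale.Agent.P106.U.H931 (nx lvi)

/-! ### the a-step of a level -/

section lev

variable {n : ℕ} {g : ℕ → Prop} {a r : ℕ → ℕ}

/-- the a-step of the level `z` -/
noncomputable def lmx (n : ℕ) (a : ℕ → ℕ) (z : ℕ) : ℕ := nx n a (lvi n a z)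

theorem lmx_facts (D : Sdat n g a r) {z : ℕ} (h0 : a 0 ≤ z) (h1 : z < a n) :
    lmx n a z < n ∧ a (lmx n a z) = z ∧ a (lmx n a z + 1) = z + 1 := by
  have e1 : a (lvi n a z) = z := H931.a_lvi D h0 le_rfl h1.le
  have e2 : lvi n a z ≤ n := H931.lvi_le_n n a z
  have e3 : lvi n a z ≤ nx n a (lvi n a z) := H931.le_nx e2
  have e4 : a (nx n a (lvi n a z)) = z := by rw [H931.nx_const D e3 le_rfl, e1]
  have e5 : nx n a (lvi n a z) < n := by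
    refine lt_of_le_of_ne (H931.nx_le n a _) fun h => ?_
    rw [h] at e4
    omega
  exact ⟨e5, e4, by show a (nx n a (lvi n a z) + 1) = z + 1; rw [H931.nx_spec e5, e4]⟩

/-- **levels** -/
theorem lvl (D : Sdat n g a r) : H495.Lvl n a (fun z => nx n a (lvi n a z)) where
  lt _ h0 h1 := (lmx_facts D h0 h1).1
  eq _ h0 h1 := (lmx_facts D h0 h1).2.1
  st _ h0 h1 := (lmx_facts D h0 h1).2.2

end lev

section run

variable {Ω : Type} [Fintype Ω] {τ υ : Type} {R : Run Ω τ υ} {p : Run.Num} {K c' g' gU : ℝ} {i0 : ℕ}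

/-! ### levels of the compressed path -/

theorem ix_le_n (R : Run Ω τ υ) (i0 j : ℕ) : ix R i0 j ≤ R.n := Cmp.idx_le _

theorem ix_le_J (R : Run Ω τ υ) (p : Run.Num) (i0 j : ℕ) : ix R i0 j ≤ R.n + p.J := (ix_le_n R i0 j).trans (Nat.le_add_right _ _)

theorem ix_low (R : Run Ω τ υ) (μ : ℕ) (o : Fin 7 → ℝ) (i0 : ℕ) : ix (low R μ o) i0 = ix R i0 := rfl
theorem az_low (R : Run Ω τ υ) (μ : ℕ) (o : Fin 7 → ℝ) (i0 : ℕ) : az (low R μ o) i0 = az R i0 := rfl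
theorem rz_low (R : Run Ω τ υ) (μ : ℕ) (o : Fin 7 → ℝ) (i0 : ℕ) : rz (low R μ o) i0 = rz R i0 := rfl
theorem nz_low (R : Run Ω τ υ) (μ : ℕ) (o : Fin 7 → ℝ) (i0 : ℕ) : nz (low R μ o) i0 = nz R i0 := rfl
theorem bc_low (R : Run Ω τ υ) (μ : ℕ) (o : Fin 7 → ℝ) : bc (low R μ o) = bc R := rfl

/-- the last state is the end of the path -/
theorem ix_top (R : Run Ω τ υ) (hi0 : i0 ≤ Cmp.Nc R R.b1) : ix R i0 (nz R i0) = R.n := by
  unfold ix nz
  rw [Nat.add_sub_cancel' hi0]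
  exact Cmp.idx_top

theorem a_ix (hP : R.Path p) (i0 j : ℕ) : R.C.a (ix R i0 j) = R.m * az R i0 j := lev_a hP (ix_le_J R p i0 j)

theorem a_ix0 (hP : R.Path p) (i0 j : ℕ) : R.C.a (ix R i0 j) = 0 + R.m * az R i0 j := by
  rw [Nat.zero_add]
  exact a_ix hP i0 j

theorem R_ix (hP : R.Path p) (i0 j : ℕ) : R.C.R (ix R i0 j) (bc R) = R.r0 + R.m * rz R i0 j :=
  lev_R hP R.b1 (ix_le_J R p i0 j)

/-- the two kinds of steps -/
theorem step_ix (hP : R.Path p) {j : ℕ} (hj : j < nz R i0) :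
    (R.IsA (ix R i0 j) ∧ az R i0 (j + 1) = az R i0 j + 1 ∧ rz R i0 (j + 1) = rz R i0 j) ∨
    (¬ R.IsA (ix R i0 j) ∧ az R i0 (j + 1) = az R i0 j ∧ rz R i0 (j + 1) = rz R i0 j + 1) := by
  unfold nz at hj
  exact Cmp.step2 hP (j := i0 + j) (by omega)

/-- **the data of the summation** -/
theorem sdat_ix (hP : R.Path p) (g : ℕ → Prop) (hg : ∀ j < nz R i0, g j → R.IsA (ix R i0 j)) :
    Sdat (nz R i0) g (az R i0) (rz R i0) where
  hr := fun j hj => by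
    rcases step_ix hP hj with ⟨_, _, h⟩ | ⟨h, _, h'⟩
    · exact Or.inl h
    · exact Or.inr ⟨h', fun hgj => h (hg j hj hgj)⟩
  ha := fun j hj => by
    rcases step_ix hP hj with ⟨_, h, h'⟩ | ⟨_, h, _⟩
    · exact Or.inr ⟨h, h'⟩
    · exact Or.inl h
  ga := fun j hj hgj => by
    rcases step_ix hP hj with ⟨_, h, _⟩ | ⟨h, _⟩
    · exact h
    · exact absurd (hg j hj hgj) h

theorem ix_mono' (R : Run Ω τ υ) (i0 : ℕ) {i k : ℕ} (h : i ≤ k) : ix R i0 i ≤ ix R i0 k := ix_mono R i0 h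

/-- hypothesis `hfs` of `heavy_ovhM` -/
theorem ix_strict (hP : R.Path p) : ∀ i k, i < k → k ≤ nz R i0 → ix R i0 i < ix R i0 k := by
  intro i k hik hk
  unfold nz at hk
  exact Cmp.idx_strict hP (j := i0 + i) (k := i0 + k) (by omega) (by omega)

/-- hypothesis `hst` of `heavy_ovhM` -/
theorem ix_st (hP : R.Path p) : ∀ k < nz R i0, az R i0 (k + 1) = az R i0 k ∨ az R i0 (k + 1) = az R i0 k + 1 := by
  intro k hk
  rcases step_ix hP hk with ⟨_, h, _⟩ | ⟨_, h, _⟩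
  · exact Or.inr h
  · exact Or.inl h

/-- an a-step of the compressed path is an a-step of the path -/
theorem ix_isA (hP : R.Path p) {k : ℕ} (hk : k < nz R i0) (h : az R i0 (k + 1) = az R i0 k + 1) : R.IsA (ix R i0 k) := by
  rcases step_ix hP hk with ⟨h1, _, _⟩ | ⟨_, h1, _⟩
  · exact h1
  · omega

/-- hypothesis `hf1` of `heavy_ovhM` -/
theorem ix_f1 (hP : R.Path p) : ∀ k < nz R i0, az R i0 (k + 1) = az R i0 k + 1 →
    R.C.a (ix R i0 (k + 1)) = R.C.a (ix R i0 k + 1) := by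
  intro k hk _
  unfold nz at hk
  exact (Cmp.dig hP (j := i0 + k) (by omega)).1

theorem ix_dig (hP : R.Path p) : ∀ k < nz R i0, R.C.a (ix R i0 (k + 1)) = R.C.a (ix R i0 k + 1) ∧
    R.C.R (ix R i0 (k + 1)) (bc R) = R.C.R (ix R i0 k + 1) (bc R) := by
  intro k hk
  unfold nz at hk
  exact Cmp.dig hP (j := i0 + k) (by omega)

theorem az_mono (hP : R.Path p) : ∀ i k, i ≤ k → k ≤ nz R i0 → az R i0 i ≤ az R i0 k := fun _ k hik _ =>
  H833.aN_mono hP (ix_mono' R i0 hik) (ix_le_J R p i0 k)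

theorem rz_mono (hP : R.Path p) : ∀ i k, i ≤ k → k ≤ nz R i0 → rz R i0 i ≤ rz R i0 k := fun _ k hik _ =>
  H833.RN_mono hP R.b1 (ix_mono' R i0 hik) (ix_le_J R p i0 k)

/-- the levels allow the cells -/
theorem lev_ix (hP : R.Path p) {μ : ℕ} (o : Fin 7 → ℝ) (h1 : 8 * μ ≤ bc R) (h2 : 8 * μ ≤ R.r0) (j : ℕ) :
    (lc R.C μ o).Lev (ix R i0 j) (bc R) := by
  refine ⟨h1, ?_⟩
  rw [H101.lc_R]
  show 8 * μ ≤ R.C.R (ix R i0 j) (bc R)
  rw [R_ix hP]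
  omega

/-! ### letters -/

/-- the whole letter of the ray side is nested -/
theorem zw_fn (h : R.Ok p K c' g' gU) {i j : ℕ} (hij : i ≤ j) : Fn R.Q (Zw R i) (Zw R j) := by
  intro ω ω' p1 p2 e
  have e1 : R.Z j ω = R.Z j ω' := congrArg Prod.fst e
  have e2 : R.C.T j ω = R.C.T j ω' := congrArg Prod.snd e
  exact Prod.ext (h.Um i j hij ω ω' p1 p2 e1) (R.C.T_anti' hij e2)

/-- the cell is a function of the whole letter -/
theorem cell_zw (h : R.Ok p K c' g' gU) {μ : ℕ} (o : Fin 7 → ℝ) {i b : ℕ} (hi : i ≤ R.n + p.J) :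
    Fn R.Q ((lc R.C μ o).cell i b) (Zw R i) := by
  intro ω ω' p1 p2 e
  have e1 : R.Z i ω = R.Z i ω' := congrArg Prod.fst e
  have e2 : R.C.T i ω = R.C.T i ω' := congrArg Prod.snd e
  refine H101.cell_congr (C := lc R.C μ o) ?_ e2 (h.Uf i hi ω ω' p1 p2 e1)
  show R.C.l ω = R.C.l ω'
  rw [h.Cl, h.Cl]
  have := congrArg Prod.fst e1
  simp only [Run.Z] at this
  rw [this]

/-! ### the potential of the old kind -/

/-- the potential along the compressed path -/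
noncomputable def psi0 (R : Run Ω τ υ) (μ : ℕ) (o : Fin 7 → ℝ) (i0 j : ℕ) : ℝ :=
  psi R.Q R.ry (fun j => Zw R (ix R i0 j)) (fun j => (lc R.C μ o).cell (ix R i0 j) (bc R)) j

/-- the price of a step -/
noncomputable def qc0 (R : Run Ω τ υ) (i0 j : ℕ) : ℝ :=
  qc R.Q R.ry (fun j => Zw R (ix R i0 j)) (fun j ω => fl1 (R.C.a (ix R i0 j)) (R.C.t ω)) j

theorem qc0_nonneg (R : Run Ω τ υ) (i0 j : ℕ) : 0 ≤ qc0 R i0 j := hc_nonneg _ _ _

/-- **the sum of the prices** -/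
theorem qc0_sum (h : R.Ok p K c' g' gU) (i0 N : ℕ) : ∑ j ∈ range N, qc0 R i0 j ≤ gU + g' :=
  H931.qcs_sum h (ix_mono R i0) (ix_le_J R p i0 N)

/-- **the trivial inequality** -/
theorem triv0 (h : R.Ok p K c' g' gU) (hK : 1 ≤ K) {μ : ℕ} (hμ : μ ≤ R.C.μ) (o : Fin 7 → ℝ) (h1 : 8 * μ ≤ bc R)
    (h2 : 8 * μ ≤ R.r0) {c1 : ℝ} (hc1 : cNst K ≤ c1) : ∀ i k, i ≤ k → k ≤ nz R i0 →
    - c1 - ∑ j ∈ Ico i k, qc0 R i0 j ≤ psi0 R μ o i0 k - psi0 R μ o i0 i := by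
  intro i k hik hk
  have key := H833.triv_t R.Q ((lc R.C μ o).re (ix R i0) (ix_mono R i0)) hK
    (fun ω hω => Pth.re_ok (ix R i0) (ix_mono R i0) (H101.lc_Ok o hμ (h.ok ω hω))) (n := k) (i := i) (k := k) (b := bc R)
    hik le_rfl (lev_ix h.pth o h1 h2 i) R.ry (fun j => Zw R (ix R i0 j))
    (fun j _ => zw_fn h (ix_mono' R i0 (Nat.le_succ j)))
    (by
      intro ω ω' p1 p2 e
      exact cell_zw h o (ix_le_J R p i0 i) ω ω' p1 p2 (congrArg Prod.snd e))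
  have e1 : - cNst K - ∑ j ∈ Ico i k, qc0 R i0 j ≤ psi0 R μ o i0 k - psi0 R μ o i0 i := key
  linarith

/-- **the end** -/
theorem end0' (h : R.Ok p K c' g' gU) (μ : ℕ) (o : Fin 7 → ℝ) (i0 N : ℕ) :
    psi0 R μ o i0 N - psi0 R μ o i0 0 -
      hc R.Q (Zw R (ix R i0 0)) (fun ω => (R.ry ω, (lc R.C μ o).cell (ix R i0 0) (bc R) ω)) ≤
    mi R.Q R.ry ((lc R.C μ o).cell (ix R i0 N) (bc R)) ((lc R.C μ o).cell (ix R i0 0) (bc R)) :=
  H833.psi_total R.Q R.ry (fun j => Zw R (ix R i0 j)) (fun j => (lc R.C μ o).cell (ix R i0 j) (bc R)) N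
    (zw_fn h (ix_mono' R i0 (Nat.zero_le N)))
    (by
      intro ω ω' p1 p2 e
      exact cell_zw h o (ix_le_J R p i0 N) ω ω' p1 p2 (congrArg Prod.snd e))

theorem start0 (h : R.Ok p K c' g' gU) (μ : ℕ) (o : Fin 7 → ℝ) (i0 j : ℕ) :
    hc R.Q (Zw R (ix R i0 j)) (fun ω => (R.ry ω, (lc R.C μ o).cell (ix R i0 j) (bc R) ω)) ≤ gU :=
  H931.start_price h (D := lc R.C μ o) rfl (ix_le_J R p i0 j)

/-- **the end, with the price** -/
theorem end0 (h : R.Ok p K c' g' gU) (μ : ℕ) (o : Fin 7 → ℝ) (i0 N : ℕ) {x : ℝ} (hx : gU ≤ x) :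
    psi0 R μ o i0 N - psi0 R μ o i0 0 - x ≤
    mi R.Q R.ry ((lc R.C μ o).cell (ix R i0 N) (bc R)) ((lc R.C μ o).cell (ix R i0 0) (bc R)) := by
  have h1 := end0' h μ o i0 N
  have h2 := start0 h μ o i0 0
  linarith

end run

/-! ### over the record -/

section rec

open Vale.Agent.P106.U.S5

variable {σ : Cst} {ε : ℝ} {ρ : Thr} {m B : ℕ} {Ω : Type} [Fintype Ω] {Q : Law Ω} {l : Ω → Ry} {t : Ω → ℝ} {L h q r0 Rn : ℕ}
  {W : Ω → Cbx} {τ υ : Type} {R : Run Ω τ υ} {pn : Run.Num} {g' gU e κ₀ : ℝ} {a1 r1 : ℕ} {i0 : ℕ}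

theorem mu_le (H : RunOk σ ε ρ m B Q l t L h q r0 Rn W R pn g' gU e κ₀ a1 r1) {μ : ℕ} (hμ : μ ≤ m * B) : μ ≤ R.C.μ := by
  rw [H.hμ]
  exact hμ

/-- the margin at the cap -/
theorem b_mu (H : RunOk σ ε ρ m B Q l t L h q r0 Rn W R pn g' gU e κ₀ a1 r1) {μ : ℕ} (hμ : μ ≤ R.C.μ) : 8 * μ ≤ bc R := by
  rw [H.hμ] at hμ
  unfold bc
  have h1 := H.cap.low
  rw [H.hm]
  have h2 : m * (8 * B) ≤ m * R.b1 := Nat.mul_le_mul_left m h1.le
  have h3 : m * (8 * B) = 8 * (m * B) := by ring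
  omega

/-- the margin at the start precision -/
theorem r_mu (H : RunOk σ ε ρ m B Q l t L h q r0 Rn W R pn g' gU e κ₀ a1 r1) {μ : ℕ} (hμ : μ ≤ R.C.μ) : 100 * μ ≤ R.r0 := by
  rw [H.hμ] at hμ
  have h1 := H.rm
  rw [H.hr0]
  omega

/-- the levels allow the cells -/
theorem lev_rec (H : RunOk σ ε ρ m B Q l t L h q r0 Rn W R pn g' gU e κ₀ a1 r1) {μ : ℕ} (hμ : μ ≤ R.C.μ) (o : Fin 7 → ℝ)
    (i0 j : ℕ) : (lc R.C μ o).Lev (ix R i0 j) (bc R) :=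
  lev_ix H.ok.pth o (b_mu H hμ) (by have := r_mu H hμ; omega) j

/-- **`ScaleOk.triv`** for the old kind -/
theorem triv_rec (H : RunOk σ ε ρ m B Q l t L h q r0 Rn W R pn g' gU e κ₀ a1 r1) (hρ : ρ.Ok) {μ : ℕ} (hμ : μ ≤ R.C.μ)
    (o : Fin 7 → ℝ) {c1 : ℝ} (hc1 : cNst ρ.K ≤ c1) : ∀ i k, i ≤ k → k ≤ nz R i0 →
    - c1 - ∑ j ∈ Ico i k, qc0 R i0 j ≤ psi0 R μ o i0 k - psi0 R μ o i0 i :=
  triv0 H.ok hρ.K1 hμ o (b_mu H hμ) (by have := r_mu H hμ; omega) hc1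

/-- **the end of `PScale`** -/
theorem end_rec (H : RunOk σ ε ρ m B Q l t L h q r0 Rn W R pn g' gU e κ₀ a1 r1) (μ : ℕ) (o : Fin 7 → ℝ) {η : ℝ}
    (hη : 16 * ε ≤ η) (N : ℕ) :
    psi0 R μ o i0 N - psi0 R μ o i0 0 - η / 16 * h ≤
    mi R.Q R.ry ((lc R.C μ o).cell (ix R i0 N) (bc R)) ((lc R.C μ o).cell (ix R i0 0) (bc R)) := by
  refine end0 H.ok μ o i0 N (H.gU1.trans ?_)
  exact mul_le_mul_of_nonneg_right (by linarith) (Nat.cast_nonneg _)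

/-- the sum of the prices of the record -/
theorem qc_rec (H : RunOk σ ε ρ m B Q l t L h q r0 Rn W R pn g' gU e κ₀ a1 r1) (N : ℕ) :
    ∑ j ∈ range N, qc0 R i0 j ≤ 2 * ε * h := by
  have h1 := qc0_sum H.ok i0 N
  have h2 := H.gU1
  have h3 := H.g'1
  linarith

end rec

end Vale.Agent.P106.U.H812
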