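import Vale.Agent.P106.U.MIC.Stage
import Vale.Agent.P106.U.H812.RecS

/-!
# P106 / U / H812 : the row [T] of one scale (helper812)

Levels of the a-steps, the trivial inequality and the end of the potential for the situation `St` of helper679.
-/

set_option autoImplicit false

namespace Vale.Agent.P106.U.H812

open Finset Vale.Agent.P127 Vale.Agent.P127.Stk Vale.Agent.P127.U Vale.Agent.P106.W Vale.Agent.P106.K
open Vale.Agent.P106.U.S3 (Run)
open Vale.Agent.P106.U.S5
open Vale.Agent.P106.U.MIC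
open Vale.Agent.P106.U.H833 (cNst)
open Vale.Agent.P106.U.H101 (lc low)
open Vale.Agent.P106.U.H118 (Sdat Zw)

section st

variable {η : ℝ} {x : ℕ} {σ : Cst} {ε : ℝ} {ρ : Thr} {g : Gv} {m B h : ℕ}

theorem st_psi (s : St η x σ ε ρ g m B h) (j : ℕ) : s.psi j = psi0 s.R (μS x m) s.o s.i0 j := rfl

theorem st_qc (s : St η x σ ε ρ g m B h) (j : ℕ) : s.qc j = qc0 s.R s.i0 j := rfl

/-- the data of the summation -/
theorem st_sdat (s : St η x σ ε ρ g m B h) : Sdat s.N s.gd s.a s.r :=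
  sdat_ix s.run.ok.pth s.gd fun _ _ hg => hg.1

/-- the margin can be taken -/
theorem st_mu (s : St η x σ ε ρ g m B h) (hB : μS x m ≤ m * B) : μS x m ≤ s.R.C.μ := by
  rw [s.run.hμ]
  exact hB

end st

/-- the margin of the scale fits into the margin of the run -/
theorem mu_ev (x : ℕ) {σ : Cst} {ε : ℝ} : Suf σ ε fun _ m B _ => μS x m ≤ m * B := by
  intro g _
  refine ⟨1, fun m hm => ⟨μS x m, fun B hB => ⟨0, fun h _ => ?_⟩⟩⟩
  exact hB.trans (Nat.le_mul_of_pos_left B hm)

/-- **the row [T]** -/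
theorem row_T : RowT := by
  intro b hb η hη x δh e3
  intros
  refine ⟨1, one_pos, fun θ _ _ => ⟨1, one_pos, fun δ1 _ _ σ _ hσ => ⟨η / 16, by positivity, fun ε hε hε' ρ hρ => ?_⟩⟩⟩
  refine ⟨max (cNst ρ.K) 0, le_max_right _ _, (mu_ev x).mono fun g m B h _ hB s => ⟨?_, ?_, ?_⟩⟩
  · exact lvl (st_sdat s)
  · exact triv_rec s.run hρ (st_mu s hB) s.o (le_max_left _ _)
  · exact end_rec s.run (μS x m) s.o (by linarith) s.N

end Vale.Agent.P106.U.H812
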