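import Vale.Agent.P106.U.H812.RecS
import Vale.Agent.P106.U.H652.Ev3
import Vale.Agent.P106.U.H357.HVR
import Vale.Agent.P106.U.H425.QS

/-!
# P106 / U / H812 : numbers of one scale (helper812)

Scale `M`, `X = M + 12`; `t = X m`, accuracy `gS = 8 t`, margin `muS c = 8 c t`, `pv = 2 μ`, `MuS c = 64 c X` (blocks).

* `Nx` : the conditions on `m`, `B`;  **`nx_ev`** : `Ev3`.
* **`hvN_rec`** : 357's `HvN` (833's `NumN`: U/H518/NumNx.lean).
* `qnum_ev` : 425's `QNum`.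
-/

set_option autoImplicit false

namespace Vale.Agent.P106.U.H812

open Filter Finset Vale.Agent.P127 Vale.Agent.P127.Stk Vale.Agent.P127.U Vale.Agent.P106.W Vale.Agent.P106.K
open Vale.Agent.P127.U.CellD (q2)
open Vale.Agent.P106.U.S3 (Run)
open Vale.Agent.P106.U.S5
open Vale.Agent.P106.U.MIC
open Vale.Agent.P106.U.H101 (lc low)
open Vale.Agent.P106.U.H652

/-- accuracy -/
def gS (M m : ℕ) : ℕ := 8 * ((M + 12) * m)
/-- margin -/
def muS (c M m : ℕ) : ℕ := 8 * c * ((M + 12) * m)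
/-- eight times the margin, in blocks -/
def MuS (c M : ℕ) : ℕ := 64 * c * (M + 12)

theorem muS_div (c M m : ℕ) : muS c M m / 8 = c * ((M + 12) * m) := by
  unfold muS
  rw [Nat.mul_assoc]
  exact Nat.mul_div_cancel_left _ (by norm_num)

theorem mu8 (c M m : ℕ) : 8 * muS c M m = m * MuS c M := by
  unfold muS MuS
  ring

/-- **the conditions** -/
structure Nx (K : ℝ) (cc c M Lb m B : ℕ) : Prop where
  m1 : 104 ≤ m
  c6 : 6 ≤ c
  hc : 10 * cc ≤ 8 * c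
  B1 : Lb + MuS c M ≤ B
  Bm : muS c M m ≤ B
  BK : (100 * K) ^ 20 ≤ B
  big : 10 * 2 ^ (m + 5 * gS M m + 4) * (70 * (8 * K) ^ 4 * q2 (muS c M m)) ≤ 1

/-- **the conditions hold** -/
theorem nx_ev (K : ℝ) (cc c M Lb : ℕ) (c6 : 6 ≤ c) (hc : 10 * cc ≤ 8 * c) : Ev3 fun m B _ => Nx K cc c M Lb m B := by
  have h1 : ∀ᶠ m : ℕ in atTop, 11200 * (8 * K) ^ 4 * 2 ^ ((40 * (M + 12) + 1) * m) * q2 (8 * c * (M + 12) * m) ≤ 1 :=
    ev_q2' (11200 * (8 * K) ^ 4) (40 * (M + 12) + 1) (8 * c * (M + 12)) (by nlinarith) one_pos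
  refine Ev3.of_B ?_
  filter_upwards [h1, ev_nat 104] with m h1 h2
  filter_upwards [ev_nat (Lb + MuS c M), ev_nat (muS c M m), ev_con ((100 * K) ^ 20) one_pos] with B g1 g2 g3
  refine ⟨h2, c6, hc, g1, g2, by linarith, ?_⟩
  have e1 : muS c M m = 8 * c * (M + 12) * m := by unfold muS; ring
  have e2 : m + 5 * gS M m + 4 = (40 * (M + 12) + 1) * m + 4 := by unfold gS; ring
  rw [e1, e2, pow_add]
  calc 10 * (2 ^ ((40 * (M + 12) + 1) * m) * 2 ^ 4) * (70 * (8 * K) ^ 4 * q2 (8 * c * (M + 12) * m)) =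
      11200 * (8 * K) ^ 4 * 2 ^ ((40 * (M + 12) + 1) * m) * q2 (8 * c * (M + 12) * m) := by ring
    _ ≤ 1 := h1

theorem two_K {ρ : Thr} (hρ : ρ.Ok) : 2 * ρ.K ≤ 2 ^ 51 := by
  have := hρ.K2
  norm_num at this ⊢
  linarith

section rec

variable {σ : Cst} {ε : ℝ} {ρ : Thr} {m B : ℕ} {Ω : Type} [Fintype Ω] {Q : Law Ω} {l : Ω → Ry} {t : Ω → ℝ} {L h q r0 Rn : ℕ}
  {W : Ω → Cbx} {τ υ : Type} {R : Run Ω τ υ} {pn : Run.Num} {g' gU e κ₀ : ℝ} {a1 r1 : ℕ} {cc c M Lb : ℕ}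

theorem m_rec (H : RunOk σ ε ρ m B Q l t L h q r0 Rn W R pn g' gU e κ₀ a1 r1) : 1 ≤ R.m := H.ok.pth.m1

/-- the margin can be taken -/
theorem mu_rec (H : RunOk σ ε ρ m B Q l t L h q r0 Rn W R pn g' gU e κ₀ a1 r1) (N : Nx ρ.K cc c M Lb m B) :
    muS c M m ≤ R.C.μ := by
  rw [H.hμ]
  have h1 := N.Bm
  have h2 := N.m1
  nlinarith

/-- **357's numbers** -/
theorem hvN_rec (H : RunOk σ ε ρ m B Q l t L h q r0 Rn W R pn g' gU e κ₀ a1 r1) (hρ : ρ.Ok) (N : Nx ρ.K cc c M Lb m B)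
    {bS : ℕ} (loS : R.m * (R.b1 + B) ≤ bS) :
    H357.HvN (8 * ρ.K) R.m (gS M m) (muS c M m) (2 * muS c M m) (R.m * R.b1) bS := by
  have hm1 := N.m1
  have hmR : R.m = m := H.hm
  have hB1 := N.B1
  have hlow := H.cap.low
  have hμC := mu_rec H N
  have hm8 := mu8 c M m
  have hMB : m * MuS c M ≤ m * B := Nat.mul_le_mul_left m (by omega)
  have hXm : m ≤ (M + 12) * m := Nat.le_mul_of_pos_left m (by omega)
  have hdist : R.m * (R.b1 + B) = m * R.b1 + m * B := by rw [hmR, Nat.mul_add]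
  have hb := b_mu H hμC
  unfold bc at hb
  refine
    { K1 := by have := hρ.K1; linarith
      m1 := m_rec H
      mg := by rw [hmR]; unfold gS; omega
      gμ := ?_
      μp := by omega
      b8 := hb
      bb := by rw [hmR]; omega
      bp := by rw [hmR]; omega
      big := ?_ }
  · unfold gS muS
    have h6 := N.c6
    exact Nat.mul_le_mul_right _ (by omega)
  · rw [hmR]
    exact N.big

end rec

/-- **425's numbers** -/
theorem qnum_ev (σ : Cst) (hσ : 0 < σ.θ) {κ : ℝ} (hκ : 0 < κ) (ρ : Thr) : Ev3 fun m _ h => H425.QNum σ κ ρ m h := by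
  have hs : 0 < Real.sqrt σ.θ := Real.sqrt_pos.2 hσ
  have h1 : Ev3 fun m _ _ => 4 * ρ.K ≤ 2 ^ m := by
    refine Ev3.of_m ?_
    filter_upwards [ev_con (4 * ρ.K) one_pos] with m hm
    have : (m : ℝ) ≤ 2 ^ m := by exact_mod_cast m.lt_two_pow_self.le
    linarith
  have h2 : Ev3 fun m _ h => 16 * (m : ℝ) ≤ Real.sqrt σ.θ * h := Ev3.of_h fun m _ => ev_con _ hs
  have h3 : Ev3 fun m _ h => 12 * (m : ℝ) ≤ κ * h := Ev3.of_h fun m _ => ev_con _ hκ
  exact (h1.and (h2.and h3)).mono fun m B h H => ⟨H.1, H.2.1, H.2.2⟩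

end Vale.Agent.P106.U.H812
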