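import Vale.Agent.P106.U.H812.RowT

/-!
# P106 / U / H812 : the row [Q] of one scale (helper812)

The sum of the prices of the situation `St` is at most `2 ε h`.
-/

set_option autoImplicit false

namespace Vale.Agent.P106.U.H812

open Finset Vale.Agent.P127 Vale.Agent.P127.Stk Vale.Agent.P127.U Vale.Agent.P106.W Vale.Agent.P106.K
open Vale.Agent.P106.U.S5
open Vale.Agent.P106.U.MIC

/-- **the row [Q]** -/
theorem row_Q : RowQ := by
  intro b hb η hη x δh e3
  intros
  refine ⟨1, one_pos, fun θ _ _ => ⟨1, one_pos, fun δ1 _ _ σ _ hσ => ⟨η / 400, by positivity, fun ε hε hε' ρ hρ => ?_⟩⟩⟩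
  refine fun g _ => ⟨0, fun m _ => ⟨0, fun B _ => ⟨0, fun h _ s => ?_⟩⟩⟩
  have h1 : ∑ j ∈ range s.N, s.qc j ≤ 2 * ε * h := qc_rec s.run s.N
  refine h1.trans (mul_le_mul_of_nonneg_right ?_ (Nat.cast_nonneg _))
  linarith

end Vale.Agent.P106.U.H812
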